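import Vale.Agent.P181.TQ.Defs

set_option autoImplicit false
set_option linter.unusedSectionVars false

/-!
# P181, TQ (T3): the column property with one free slot
-/

namespace Vale.Agent.P181.TQ.H662

open Vale.Agent.P181 Vale.Agent.P181.H280 Vale.Agent.P181.H73 Vale.Agent.P181.H270 Finset
open Vale.Agent.P181.H872 (ZInv cur cur_apply RelE)

/-- From all frozen contents of one slot to the form. -/
lemma col_of_cur {A : Type*} [CommRing A] [Algebra ℂ A] {n j : ℕ} (L : Submodule ℂ A)
    (θ : MultilinearMap ℂ (fun _ : Fin (n + 1) => A) ℂ) (hZ : ZInv θ) (hn : 2 ≤ n)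
    (h : ∀ V ∈ L ^ (j + 1), Col L j (cur θ V 1)) : Col L j θ := by
  classical
  intro p q hpq u hu v hv P hP
  -- a third slot
  obtain ⟨r, hrp, hrq⟩ : ∃ r : Fin (n + 1), r ≠ p ∧ r ≠ q := by
    have h1 : ({p, q} : Finset (Fin (n + 1))).card < (univ : Finset (Fin (n + 1))).card := by
      rw [card_univ, Fintype.card_fin]
      have := card_le_two (a := p) (b := q)
      omega
    obtain ⟨r, _, hr⟩ := exists_mem_notMem_of_card_lt_card h1
    rw [mem_insert, mem_singleton, not_or] at hr
    exact ⟨r, hr.1, hr.2⟩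
  set P' := Function.update (Function.update P p (u ^ (j + 1))) q (u * v) with hP'
  have hPp : P' p = u ^ (j + 1) := by
    rw [hP', Function.update_of_ne hpq, Function.update_self]
  have hPq : P' q = u * v := by rw [hP', Function.update_self]
  have hmem : ∀ i, P' i ∈ L ^ (j + 1) := by
    intro i
    by_cases hi : i = q
    · rw [hi, hPq, pow_succ']
      exact Submodule.mul_mem_mul hu hv
    · by_cases hi' : i = p
      · rw [hi', hPp]
        exact Submodule.pow_mem_pow _ hu _
      · rw [hP', Function.update_of_ne hi, Function.update_of_ne hi']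
        exact hP i
  set σ : Equiv.Perm (Fin (n + 1)) := Equiv.swap 0 r with hσ
  have hσσ : ∀ i, σ (σ i) = i := fun i => Equiv.swap_apply_self 0 r i
  have hne : ∀ i, i ≠ r → σ i ≠ 0 := by
    intro i hi h0
    apply hi
    have h1 := congrArg σ h0
    rw [hσσ, hσ, Equiv.swap_apply_left] at h1
    exact h1
  obtain ⟨p', hp'⟩ := Fin.exists_succ_eq.2 (hne p hrp.symm)
  obtain ⟨q', hq'⟩ := Fin.exists_succ_eq.2 (hne q hrq.symm)
  apply hZ σ
  have h1 := h (P' (σ 0)) (hmem _) p' q' (by
    intro h2
    apply hpq
    have h3 : σ p = σ q := by rw [← hp', ← hq', h2]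
    exact σ.injective h3) u hu v hv (fun i => P' (σ i.succ)) (fun i => hmem _)
  rw [cur_apply] at h1
  rw [← h1]
  congr 1
  funext i
  refine Fin.cases ?_ (fun i => ?_) i
  · rw [Fin.cons_zero]
  · rw [Fin.cons_succ, one_mul]
    by_cases hi : i = q'
    · rw [hi, Function.update_self, hq', hσσ, hPq]
    · rw [Function.update_of_ne hi]
      by_cases hi' : i = p'
      · rw [hi', Function.update_self, hp', hσσ, hPp]
      · rw [Function.update_of_ne hi']

/-- **(T3)** -/
theorem colStmt : ColStmt := by
  intro A _ _ a k j L θ hZ hj ha h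
  obtain ⟨n, rfl⟩ : ∃ n, a = n + 1 := ⟨a - 1, by omega⟩
  refine col_of_cur L θ hZ (by omega) ?_
  intro V hV
  refine H872.colA (k := k) L (by omega) (by omega) _ (ZInv.cur hZ V 1) ?_
  intro w hw v hv
  rw [cur_apply, ← h w hw (Fin.cons V v) ?_]
  · congr 1
    funext p
    refine Fin.cases ?_ (fun p => ?_) p
    · rw [Fin.cons_zero, Fin.cons_zero]
      have h1 : ∏ i : Fin (k + 1), (if (i : ℕ) + 1 < ((0 : Fin (n + 1)) : ℕ) then w i else 1) =
          1 := by
        apply Finset.prod_eq_one
        intro i _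
        rw [if_neg]
        rw [Fin.val_zero]
        omega
      rw [h1, one_mul]
    · rw [Fin.cons_succ, Fin.cons_succ, one_mul]
      congr 1
      apply Finset.prod_congr rfl
      intro i _
      rw [Fin.val_succ]
      exact if_congr (by omega) rfl rfl
  · intro p
    refine Fin.cases ?_ (fun p => ?_) p
    · rw [Fin.cons_zero, Fin.val_zero, Nat.zero_sub, Nat.zero_min, Nat.sub_zero]
      have h1 : n + 1 - 3 = j + 1 := by omega
      rw [h1]
      exact hV
    · rw [Fin.cons_succ]
      have h1 : n + 1 - 3 - min (((p.succ : Fin (n + 1)) : ℕ) - 1) (k + 1) =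
          j + 1 - min (p : ℕ) (k + 1) := by
        rw [Fin.val_succ]
        omega
      rw [h1]
      exact hv p

end Vale.Agent.P181.TQ.H662
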