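import Vale.Agent.P181.TQ.Defs
import Vale.Agent.P181.H872.PlaceE

set_option autoImplicit false
set_option linter.unusedSectionVars false

/-!
# P181, TQ: the transfer is forced
-/

namespace Vale.Agent.P181.TQ.H662

open Vale.Agent.P181 Vale.Agent.P181.H280 Vale.Agent.P181.H73 Vale.Agent.P181.H270 Finset

lemma cfg_om_some {a K : ℕ} (h : K + 3 ≤ a) {l : Fin (K + 3)} {i : Fin a}
    (h1 : (i : ℕ) + 1 < (l : ℕ)) (h2 : (l : ℕ) ≤ K + 1 + (i : ℕ)) : (cfg a K h).om l i =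
      some ⟨K + 1 + (i : ℕ) - (l : ℕ), by omega⟩ := dif_pos ⟨h1, h2⟩

lemma cfg_om_none {a K : ℕ} (h : K + 3 ≤ a) {l : Fin (K + 3)} {i : Fin a}
    (h1 : ¬ ((i : ℕ) + 1 < (l : ℕ) ∧ (l : ℕ) ≤ K + 1 + (i : ℕ))) : (cfg a K h).om l i = none :=
  dif_neg h1

/-- The transfer is forced. -/
theorem forced {a K : ℕ} (h : K + 3 ≤ a) (t : Fin K → Equiv.Perm (Fin a))
    (hb : ∀ l, Function.Bijective ((cfg a K h).eta t l)) :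
    ∀ (n : ℕ) (l : Fin (K + 3)), (l : ℕ) = n → ∀ i, (cfg a K h).eta t l i = i := by
  intro n
  induction n using Nat.strong_induction_on with
  | _ n ih =>
  intro l hl
  apply H872.eq_id_of_le _ (hb l).1
  intro i
  by_cases h1 : (i : ℕ) + 1 < (l : ℕ) ∧ (l : ℕ) ≤ K + 1 + (i : ℕ)
  · have hl2 := l.2
    have hκ : K + 1 + (i : ℕ) - (l : ℕ) < K := by omega
    have h2 := cfg_om_some h h1.1 h1.2
    rw [Cfg.eta_some h2]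
    have h3 : (cfg a K h).nD l ⟨K + 1 + (i : ℕ) - (l : ℕ), hκ⟩ = i := by
      apply Fin.ext
      show K + 1 + (i : ℕ) - (l : ℕ) + (l : ℕ) - (K + 1) = (i : ℕ)
      omega
    rw [h3]
    by_contra hcon
    rw [not_le] at hcon
    set s := t ⟨K + 1 + (i : ℕ) - (l : ℕ), hκ⟩ i with hs
    have hsi : (s : ℕ) < (i : ℕ) := hcon
    have hl'b : (l : ℕ) + (s : ℕ) - (i : ℕ) < K + 3 := by omega
    have h4 : (s : ℕ) + 1 < ((⟨(l : ℕ) + (s : ℕ) - (i : ℕ), hl'b⟩ : Fin (K + 3)) : ℕ) := by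
      show (s : ℕ) + 1 < (l : ℕ) + (s : ℕ) - (i : ℕ)
      omega
    have h4' : ((⟨(l : ℕ) + (s : ℕ) - (i : ℕ), hl'b⟩ : Fin (K + 3)) : ℕ) ≤ K + 1 + (s : ℕ) := by
      show (l : ℕ) + (s : ℕ) - (i : ℕ) ≤ K + 1 + (s : ℕ)
      omega
    have h5 := ih ((l : ℕ) + (s : ℕ) - (i : ℕ)) (by omega)
      ⟨(l : ℕ) + (s : ℕ) - (i : ℕ), hl'b⟩ rfl s
    rw [Cfg.eta_some (cfg_om_some h h4 h4')] at h5
    have h6 : (⟨K + 1 + (s : ℕ) - ((⟨(l : ℕ) + (s : ℕ) - (i : ℕ), hl'b⟩ : Fin (K + 3)) : ℕ), by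
        show K + 1 + (s : ℕ) - ((l : ℕ) + (s : ℕ) - (i : ℕ)) < K
        omega⟩ : Fin K) = ⟨K + 1 + (i : ℕ) - (l : ℕ), hκ⟩ := by
      apply Fin.ext
      show K + 1 + (s : ℕ) - ((l : ℕ) + (s : ℕ) - (i : ℕ)) = K + 1 + (i : ℕ) - (l : ℕ)
      omega
    rw [h6] at h5
    have h7 : (cfg a K h).nD ⟨(l : ℕ) + (s : ℕ) - (i : ℕ), hl'b⟩
        ⟨K + 1 + (i : ℕ) - (l : ℕ), hκ⟩ = s := by
      apply Fin.ext
      show K + 1 + (i : ℕ) - (l : ℕ) + ((l : ℕ) + (s : ℕ) - (i : ℕ)) - (K + 1) = (s : ℕ)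
      omega
    rw [h7] at h5
    have h8 : s = i := (t ⟨K + 1 + (i : ℕ) - (l : ℕ), hκ⟩).injective (h5.trans hs)
    rw [h8] at hsi
    exact lt_irrefl _ hsi
  · rw [Cfg.eta_none (cfg_om_none h h1)]

/-- The letters `s ≤ κ + 1` stay. -/
theorem forcedT {a K : ℕ} (h : K + 3 ≤ a) (t : Fin K → Equiv.Perm (Fin a))
    (hb : ∀ l, Function.Bijective ((cfg a K h).eta t l)) (κ : Fin K) (s : Fin a)
    (hs : (s : ℕ) ≤ (κ : ℕ) + 1) : t κ s = s := by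
  have hκ := κ.2
  have hl : K + 1 + (s : ℕ) - (κ : ℕ) < K + 3 := by omega
  have h1 := forced h t hb _ ⟨K + 1 + (s : ℕ) - (κ : ℕ), hl⟩ rfl s
  have h2 : (s : ℕ) + 1 < ((⟨K + 1 + (s : ℕ) - (κ : ℕ), hl⟩ : Fin (K + 3)) : ℕ) := by
    show (s : ℕ) + 1 < K + 1 + (s : ℕ) - (κ : ℕ)
    omega
  have h2' : ((⟨K + 1 + (s : ℕ) - (κ : ℕ), hl⟩ : Fin (K + 3)) : ℕ) ≤ K + 1 + (s : ℕ) := by
    show K + 1 + (s : ℕ) - (κ : ℕ) ≤ K + 1 + (s : ℕ)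
    omega
  rw [Cfg.eta_some (cfg_om_some h h2 h2')] at h1
  have h3 : (⟨K + 1 + (s : ℕ) - ((⟨K + 1 + (s : ℕ) - (κ : ℕ), hl⟩ : Fin (K + 3)) : ℕ), by
      show K + 1 + (s : ℕ) - (K + 1 + (s : ℕ) - (κ : ℕ)) < K
      omega⟩ : Fin K) = κ := by
    apply Fin.ext
    show K + 1 + (s : ℕ) - (K + 1 + (s : ℕ) - (κ : ℕ)) = (κ : ℕ)
    omega
  rw [h3] at h1
  have h4 : (cfg a K h).nD ⟨K + 1 + (s : ℕ) - (κ : ℕ), hl⟩ κ = s := by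
    apply Fin.ext
    show (κ : ℕ) + (K + 1 + (s : ℕ) - (κ : ℕ)) - (K + 1) = (s : ℕ)
    omega
  rw [h4] at h1
  exact h1

end Vale.Agent.P181.TQ.H662
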